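import Vale.Agent.P045.V4.Host

/-!
# P045: the family of host v4 has no cover with fewer vertices than parts
-/

open Finset
open scoped Classical

namespace Vale.Agent.P045.V4

variable {p k N : ℕ} [Fact p.Prime] (G : Gadget k N) (P : Params p N)

/-- The line of the plane that a vertex stands for on generic edges. -/
noncomputable def derived : Vx p k → Option (PLine p)
  | .line l => some l
  | .col j s v => if v = G.gen j then some (P.pencil s) else none
  | _ => none

/-- A chosen vertex of `C` standing for a line, the line itself when possible. -/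
noncomputable def rep (C : Finset (Vx p k)) (l : PLine p) : Vx p k :=
  if Vx.line l ∈ C then .line l
  else if h : ∃ v, v ∈ C ∧ derived G P v = some l then h.choose else .line l

/-- A vertex belongs to the gadget on the pencil line of direction `s`. -/
def InTag (s : Option (ZMod p)) (v : Vx p k) : Prop :=
  (∃ j w, colour G P s j w = v) ∨ ∃ cl, v = .spec s cl

/-- The colour behind a vertex of the gadget on a pencil line. -/
noncomputable def colBack (s : Option (ZMod p)) (j0 : Fin k) (v : Vx p k) : Fin k × ℕ :=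
  if h : ∃ x : Fin k × ℕ, colour G P s x.1 x.2 = v then h.choose else (j0, 0)

/-- The class behind a special vertex. -/
def specClass : Vx p k → ℕ
  | .spec _ cl => cl
  | _ => 0

lemma colour_part (s : Option (ZMod p)) (j : Fin k) (w : ℕ) : (colour G P s j w).part = .inr j := by
  unfold colour; split_ifs <;> rfl

lemma colBack_eq (s : Option (ZMod p)) (j0 j : Fin k) (w : ℕ) :
    colBack G P s j0 (colour G P s j w) = (j, w) := by
  have h : ∃ x : Fin k × ℕ, colour G P s x.1 x.2 = colour G P s j w := ⟨(j, w), rfl⟩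
  rw [colBack, dif_pos h]
  have hc := h.choose_spec
  have hj : h.choose.1 = j := by
    have := congrArg Vx.part hc
    rwa [colour_part, colour_part, Sum.inr.injEq] at this
  generalize h.choose = x at hc hj
  obtain ⟨j', w'⟩ := x
  simp only at hj hc
  subst hj
  rw [colour_inj G P hc]

lemma colour_ne_line (s : Option (ZMod p)) (j : Fin k) (w : ℕ) (l : PLine p) :
    colour G P s j w ≠ .line l := fun e => by
  have := congrArg Vx.part e
  rw [colour_part] at this
  simp [Vx.part] at this

variable {G P}

lemma rep_spec {C : Finset (Vx p k)} {l : PLine p} (h : ∃ v, v ∈ C ∧ derived G P v = some l) :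
    rep G P C l ∈ C ∧ derived G P (rep G P C l) = some l := by
  unfold rep
  by_cases h' : Vx.line l ∈ C
  · rw [if_pos h']; exact ⟨h', rfl⟩
  · rw [if_neg h', dif_pos h]; exact h.choose_spec

lemma rep_line {C : Finset (Vx p k)} {l l' : PLine p} (h : ∃ v, v ∈ C ∧ derived G P v = some l)
    (e : rep G P C l = .line l') : l' = l := by
  have := (rep_spec h).2
  rw [e] at this
  simpa [derived] using this

lemma rep_col {C : Finset (Vx p k)} {l : PLine p} (h : ∃ v, v ∈ C ∧ derived G P v = some l)
    {j : Fin k} {s : Option (ZMod p)} {v : ℕ} (e : rep G P C l = .col j s v) :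
    v = G.gen j ∧ l = P.pencil s ∧ Vx.line l ∉ C := by
  have h2 := (rep_spec h).2
  rw [e] at h2
  simp only [derived] at h2
  split_ifs at h2 with hv
  refine ⟨hv, (Option.some.inj h2).symm, fun hl => ?_⟩
  simp [rep, hl] at e

/-- The lines of `L` are represented in `C`. -/
def Repd (G : Gadget k N) (P : Params p N) (C : Finset (Vx p k)) (L : Finset (PLine p)) : Prop :=
  ∀ l ∈ L, ∃ v, v ∈ C ∧ derived G P v = some l

/-- The vertices of `C` outside the representatives of `L`. -/
noncomputable def others (G : Gadget k N) (P : Params p N) (C : Finset (Vx p k))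
    (L : Finset (PLine p)) : Finset (Vx p k) :=
  C \ L.image (rep G P C)

lemma card_others {C : Finset (Vx p k)} {L : Finset (PLine p)} (hL : Repd G P C L) :
    #(others G P C L) + #L = #C := by
  have hsub : L.image (rep G P C) ⊆ C := by
    intro v hv
    obtain ⟨l, hl, rfl⟩ := mem_image.1 hv
    exact (rep_spec (hL l hl)).1
  have hinj : Set.InjOn (rep G P C) (L : Set (PLine p)) := by
    intro l hl l' hl' e
    have := (rep_spec (hL l hl)).2
    rw [e, (rep_spec (hL l' hl')).2] at this
    exact (Option.some.inj this).symm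
  rw [others, ← card_image_of_injOn hinj, card_sdiff_add_card_eq_card hsub]

lemma mem_others_line {C : Finset (Vx p k)} {L : Finset (PLine p)} (hL : Repd G P C L) {l : PLine p}
    (hC : Vx.line l ∈ C) (hl : l ∉ L) : Vx.line l ∈ others G P C L := by
  refine mem_sdiff.2 ⟨hC, fun h => ?_⟩
  obtain ⟨l', hl', e⟩ := mem_image.1 h
  exact hl (rep_line (hL l' hl') e ▸ hl')

/-- The gadget of one pencil line takes `k` of the other vertices. -/
lemma gain {C : Finset (Vx p k)} {L : Finset (PLine p)} {s : Option (ZMod p)} {E : Finset (Fin N)}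
    (hcov : ∀ e, Valid G P e → ∃ π, vx G P e π ∈ C) (hL : Repd G P C L) (hs : P.pencil s ∈ L)
    (hmeet : ∀ l ∈ L, l ≠ P.pencil s → ∀ u, P.pos s u ∈ linePts l → u ∈ E)
    (hb : #E + #(others G P C L) ≤ k + 2) :
    k ≤ #((others G P C L).filter (InTag G P s)) := by
  set C' := others G P C L with hC'
  set Cg := C'.filter (InTag G P s) with hCg
  set T : Finset (Fin N) := E ∪ univ.filter fun u =>
    ∃ l, Vx.line l ∈ C' ∧ l ≠ P.pencil s ∧ P.pos s u ∈ linePts l with hT
  have hTl : #T ≤ #E + #(C'.filter fun v => ¬ InTag G P s v) := by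
    refine (card_union_le _ _).trans (Nat.add_le_add_left ?_ _)
    refine card_le_card_of_forall_subsingleton
      (fun u v => ∃ l, v = Vx.line l ∧ l ≠ P.pencil s ∧ P.pos s u ∈ linePts l) (fun u hu => ?_) ?_
    · obtain ⟨l, h1, h2, h3⟩ := (mem_filter.1 hu).2
      refine ⟨_, mem_filter.2 ⟨h1, ?_⟩, l, rfl, h2, h3⟩
      rintro (⟨j, w, e⟩ | ⟨cl, e⟩)
      · exact colour_ne_line G P s j w l e
      · simp at e
    · rintro v - u ⟨-, l, rfl, h2, h3⟩ u' ⟨-, l', e, -, h3'⟩
      simp only [Vx.line.injEq] at e
      subst e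
      by_contra hne
      exact h2 (two_points (fun e => hne (P.pos_inj s e)) h3 h3' (pos_on P s u) (pos_on P s u'))
  have hsplit : #Cg + #(C'.filter fun v => ¬ InTag G P s v) = #C' :=
    card_filter_add_card_filter_not (s := C') (InTag G P s)
  have hin : ∀ u l, Vx.line l ∈ C → l ≠ P.pencil s → P.pos s u ∈ linePts l → u ∈ T := by
    intro u l hC hne hu
    by_cases hl : l ∈ L
    · exact mem_union_left _ (hmeet l hl hne u hu)
    · exact mem_union_right _ (mem_filter.2 ⟨mem_univ _, l, mem_others_line hL hC hl, hne, hu⟩)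
  set v0 := rep G P C (P.pencil s) with hv0
  set X := if Vx.line (P.pencil s) ∈ C then Cg else insert v0 Cg with hX
  have hspecC : ∀ cl, Vx.spec s cl ∈ C → Vx.spec s cl ∈ Cg := by
    intro cl h
    refine mem_filter.2 ⟨mem_sdiff.2 ⟨h, fun h' => ?_⟩, Or.inr ⟨cl, rfl⟩⟩
    obtain ⟨l, hl, e⟩ := mem_image.1 h'
    have := (rep_spec (hL l hl)).2
    rw [e] at this
    simp [derived] at this
  have hcolC : ∀ j w, colour G P s j w ∈ C → colour G P s j w ∈ X := by
    intro j w h
    by_cases h' : colour G P s j w ∈ L.image (rep G P C)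
    · obtain ⟨l, hl, e⟩ := mem_image.1 h'
      have h2 := (rep_spec (hL l hl)).2
      unfold colour at e
      split_ifs at e with hm
      · rw [e] at h2
        simp [derived] at h2
      · obtain ⟨-, hls, hnl⟩ := rep_col (hL l hl) e
        rw [hls] at e hnl
        rw [hX, if_neg hnl, colour, dif_neg hm, ← e]
        exact mem_insert_self _ _
    · have : colour G P s j w ∈ Cg := mem_filter.2 ⟨mem_sdiff.2 ⟨h, h'⟩, Or.inl ⟨j, w, rfl⟩⟩
      rw [hX]; split_ifs
      · exact this
      · exact mem_insert_of_mem this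
  have hk : 0 < k := by have := G.large; omega
  set Cc := (X.filter fun v => ∃ j w, colour G P s j w = v).image (colBack G P s ⟨0, hk⟩) with hCc
  set S := (X.filter fun v => ¬ ∃ j w, colour G P s j w = v).image specClass with hS
  have hsize : #Cc + #S ≤ #X := by
    refine (Nat.add_le_add card_image_le card_image_le).trans (le_of_eq ?_)
    exact card_filter_add_card_filter_not _
  have hCcmem : ∀ j w, colour G P s j w ∈ C → (j, w) ∈ Cc := fun j w h => mem_image.2
    ⟨_, mem_filter.2 ⟨hcolC j w h, j, w, rfl⟩, colBack_eq G P s _ j w⟩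
  have hSmem : ∀ cl, Vx.spec s cl ∈ C → cl ∈ S := by
    intro cl h
    refine mem_image.2 ⟨Vx.spec s cl, mem_filter.2 ⟨?_, ?_⟩, rfl⟩
    · rw [hX]; split_ifs
      · exact hspecC cl h
      · exact mem_insert_of_mem (hspecC cl h)
    · rintro ⟨j, w, e⟩
      have := congrArg Vx.part e
      rw [colour_part] at this
      simp [Vx.part] at this
  have hcell : ∀ g ∈ G.cells, g.2.1 ∈ T ∨ g.1 ∈ S ∨ ∃ j, (j, g.2.2 j) ∈ Cc := by
    intro g hg
    obtain ⟨π, hπ⟩ := hcov (.cell s g) hg
    rcases π with d | j
    · by_cases hd : d = s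
      · right; left
        simp only [vx, dline, hd, if_true] at hπ
        exact hSmem _ hπ
      · left
        simp only [vx, dline, if_neg hd] at hπ
        refine hin _ _ hπ (fun e => hd ?_) (mem_lineAt _ _)
        have := congrArg Prod.fst e
        rwa [Params.pencil, lineAt_fst, lineAt_fst] at this
    · right; right
      simp only [vx, tag_cell] at hπ
      exact ⟨j, hCcmem _ _ hπ⟩
  by_cases hline : Vx.line (P.pencil s) ∈ C
  · obtain ⟨h1, h2⟩ := G.keep T Cc S hcell
    rw [hX, if_pos hline] at hsize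
    by_cases h3 : #T ≤ 3
    · have := h1 h3; omega
    · have := h2 (by omega); omega
  · have hmark : ∀ m ∈ G.marks, m.1 ∈ T ∨ ∃ j, (j, m.2 j) ∈ Cc := by
      intro m hm
      obtain ⟨π, hπ⟩ := hcov (.mark s m) hm
      rcases π with d | j
      · left
        simp only [vx, dline] at hπ
        refine hin _ _ hπ (fun e => hline (e ▸ hπ)) (mem_lineAt _ _)
      · right
        simp only [vx, tag_mark] at hπ
        exact ⟨j, hCcmem _ _ hπ⟩
    have hgen : ∃ j, (j, G.gen j) ∈ Cc := by
      obtain ⟨h0, hd⟩ := rep_spec (hL _ hs)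
      rw [← hv0] at h0 hd
      rcases hv : v0 with l | ⟨s', cl⟩ | a | ⟨j, s', v⟩ | ⟨j, a, i, i'⟩ <;> rw [hv] at h0 hd <;>
        simp only [derived, reduceCtorEq, Option.some.injEq] at hd
      · exact absurd (hd ▸ h0) hline
      · split_ifs at hd with hvg
        have hss : s' = s := by
          have := congrArg Prod.fst (Option.some.inj hd)
          rwa [Params.pencil, Params.pencil, lineAt_fst, lineAt_fst] at this
        refine ⟨j, hCcmem _ _ ?_⟩
        rw [colour_gen, ← hvg, ← hss]
        exact h0
    obtain ⟨h1, h2⟩ := G.drop T Cc S hcell hmark hgen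
    rw [hX, if_neg hline] at hsize
    have := card_insert_le v0 Cg
    by_cases h3 : #T ≤ 3
    · have := h1 h3; omega
    · have := h2 (by omega); omega

/-- A role that the gadget does not reach is covered by one of the remaining vertices. -/
lemma resid {C : Finset (Vx p k)} {L : Finset (PLine p)} {s a : Option (ZMod p)} {q : Role p}
    (hcov : ∀ e, Valid G P e → ∃ π, vx G P e π ∈ C) (hL : Repd G P C L)
    (hs : P.dir (P.rpt q) ≠ s) (hq : ¬ P.Cov s q) (hLa : mline P.c a ∉ L)
    (hon : ∀ l ∈ L, P.rpt q ∈ linePts l → l = mline P.c a) :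
    ∃ π, vx G P (.role q) π ∈ (others G P C L).filter fun v => ¬ InTag G P s v := by
  obtain ⟨π, hπ⟩ := hcov (.role q) trivial
  refine ⟨π, mem_filter.2 ⟨mem_sdiff.2 ⟨hπ, fun h => ?_⟩, ?_⟩⟩
  · obtain ⟨l, hl, e⟩ := mem_image.1 h
    have h2 := (rep_spec (hL l hl)).2
    rw [e] at h2
    rcases π with d | j
    · simp only [vx, dline] at h2
      split_ifs at h2
      · simp [derived] at h2
      · simp only [derived, Option.some.injEq] at h2
        subst h2
        exact hLa (hon _ hl (mem_lineAt _ _) ▸ hl)
    · simp only [vx, colour] at h2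
      split_ifs at h2
      · simp [derived] at h2
      · simp [derived, evec, G.role_gen] at h2
  · intro h
    rcases π with d | j
    · rcases h with ⟨j, w, e⟩ | ⟨cl, e⟩
      · have e' := congrArg Vx.part e
        simp [colour_part, vx_part] at e'
      · simp only [vx, dline] at e
        split_ifs at e
    · rcases h with ⟨j', w, e⟩ | ⟨cl, e⟩
      · have hj : j' = j := by
          have e' := congrArg Vx.part e
          simpa [colour_part, vx_part] using e'
        subst hj
        simp only [vx, tag, epoint, evec] at e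
        unfold colour at e
        split_ifs at e with h1 h2
        · simp only [Vx.mrg.injEq, true_and] at e
          obtain ⟨ea, ei, ei'⟩ := e
          obtain ⟨-, r, hr, hd, -⟩ := h1.choose_spec
          obtain ⟨-, r', hr', hd', hv'⟩ := h2.choose_spec
          have hrq : r' = q := role_eq G P hd' hv'
          subst hrq
          rw [ea, ei, ei'] at hr
          rcases hr with rfl | rfl <;> rcases hr' with hr' | hr'
          · exact hs (hr' ▸ hd)
          · exact hq ⟨_, _, _, Or.inr ⟨hr', hd⟩⟩
          · exact hq ⟨_, _, _, Or.inl ⟨hr', hd⟩⟩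
          · exact hs (hr' ▸ hd)
        · simp only [Vx.col.injEq, true_and] at e
          exact hs e.1.symm
      · have e' := congrArg Vx.part e
        rw [vx_part] at e'
        simp [Vx.part] at e'

lemma lack_pRole (a : Option (ZMod p)) (j : Fin 5) : lackIdx (P.pRole a j) ≠ a := by
  cases a with
  | none => simp [Params.pRole, lackIdx]
  | some a =>
      simp only [Params.pRole, lackIdx, ne_eq, Option.some.injEq, sub_eq_self]
      intro h
      exact P.shift_add j j (by rw [h, add_zero])

lemma fRole_of_lack (r : Role p) : ∃ i, r = P.fRole (lackIdx r) i := by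
  rcases r with ⟨b, i⟩ | i <;> exact ⟨i, rfl⟩

lemma mline_inj {a b : Option (ZMod p)} (h : mline P.c a = mline P.c b) : a = b := by
  refine mdir_inj P.two_ne ?_
  rw [← mline_fst P.c a, ← mline_fst P.c b, h]

/-- Distinct kept roles of one thinned line share no vertex, except that line. -/
lemma pRole_vertex {a : Option (ZMod p)} {j j' : Fin 5} {π π' : Part p k}
    (h : vx G P (.role (P.pRole a j)) π = vx G P (.role (P.pRole a j')) π')
    (hm : vx G P (.role (P.pRole a j)) π ≠ .line (mline P.c a)) : j = j' := by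
  have hππ : π = π' := by
    have := congrArg Vx.part h
    rwa [vx_part, vx_part] at this
  subst hππ
  have key : P.pRole a j = P.pRole a j' → j = j' := by
    intro e; cases a <;> simp [Params.pRole] at e <;> exact e.2
  apply key
  apply rpt_inj P
  by_contra hne
  rcases π with d | i
  · simp only [vx, dline] at h hm
    split_ifs at h hm with h1 h2
    · simp only [Vx.inf.injEq] at h
      obtain ⟨i1, e1⟩ := fRole_of_lack (P := P) (P.pRole a j)
      obtain ⟨i2, e2⟩ := fRole_of_lack (P := P) (P.pRole a j')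
      have m1 : P.rpt (P.pRole a j) ∈ linePts (mline P.c (lackIdx (P.pRole a j))) := by
        have := fRole_mem P (lackIdx (P.pRole a j)) i1
        rwa [← e1] at this
      have m2 : P.rpt (P.pRole a j') ∈ linePts (mline P.c (lackIdx (P.pRole a j'))) := by
        have := fRole_mem P (lackIdx (P.pRole a j')) i2
        rwa [← e2] at this
      rw [← h] at m2
      have := two_points hne (pRole_mem P a j) (pRole_mem P a j') m1 m2
      exact lack_pRole a j (mline_inj this).symm
    · simp only [Vx.line.injEq] at h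
      refine hm (congrArg Vx.line ?_)
      exact two_points hne (mem_lineAt _ _) (h ▸ mem_lineAt _ _) (pRole_mem P a j) (pRole_mem P a j')
  · simp only [vx, tag, epoint, evec] at h
    unfold colour at h
    split_ifs at h with h1 h2
    · simp only [Vx.mrg.injEq, true_and] at h
      obtain ⟨ea, ei, ei'⟩ := h
      obtain ⟨-, r, hr, hd, hv⟩ := h1.choose_spec
      obtain ⟨-, r', hr', hd', hv'⟩ := h2.choose_spec
      have e1 : r = P.pRole a j := role_eq G P hd hv
      have e2 : r' = P.pRole a j' := role_eq G P hd' hv'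
      subst e1 e2
      rw [← ea, ← ei, ← ei'] at hr'
      generalize h1.choose.1 = b at hr hr'
      generalize h1.choose.2.1 = x at hr hr'
      generalize h1.choose.2.2 = y at hr hr'
      have hab : a ≠ b → False := by
        intro hab
        have hmem : ∀ r, (r = P.fRole b x ∨ r = P.pRole b y) → P.rpt r ∈ linePts (mline P.c b) := by
          rintro r (rfl | rfl)
          · exact fRole_mem P _ _
          · exact pRole_mem P _ _
        exact hab (mline_inj (two_points hne (pRole_mem P a j) (pRole_mem P a j') (hmem _ hr)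
          (hmem _ hr')))
      by_cases hab' : a = b
      · subst hab'
        rcases hr with e | e
        · exact lack_pRole a j (by rw [e, lackIdx_fRole])
        · rcases hr' with e' | e'
          · exact lack_pRole a j' (by rw [e', lackIdx_fRole])
          · exact hne (by rw [e, e'])
      · exact hab hab'
    · simp only [Vx.col.injEq, true_and] at h
      exact hne (congrArg P.rpt (role_eq G P h.1 h.2))

lemma fRole_not_line (a : Option (ZMod p)) (i : Fin 5) (π : Part p k) :
    vx G P (.role (P.fRole a i)) π ≠ .line (mline P.c a) := by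
  intro e
  have hπ : π = .inl (mdir a) := by
    have := congrArg Vx.part e
    rwa [vx_part, Vx.part, mline_fst] at this
  subst hπ
  simp [vx, dline, lackIdx_fRole] at e

/-- The dropped thinned line forces one vertex for each free kept role. -/
lemma dropped_card {C : Finset (Vx p k)} {L : Finset (PLine p)} {s a : Option (ZMod p)}
    (hcov : ∀ e, Valid G P e → ∃ π, vx G P e π ∈ C) (hL : Repd G P C L)
    (hm : Vx.line (mline P.c a) ∉ C) (hLa : mline P.c a ∉ L) (J : Finset (Fin 5))
    (hs : ∀ j ∈ J, P.dir (P.rpt (P.pRole a j)) ≠ s) (hq : ∀ j ∈ J, ¬ P.Cov s (P.pRole a j))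
    (hon : ∀ j ∈ J, ∀ l ∈ L, P.rpt (P.pRole a j) ∈ linePts l → l = mline P.c a) :
    #J ≤ #((others G P C L).filter fun v => ¬ InTag G P s v) := by
  refine card_le_card_of_forall_subsingleton (fun j v => ∃ π, vx G P (.role (P.pRole a j)) π = v)
    (fun j hj => ?_) ?_
  · obtain ⟨π, hπ⟩ := resid hcov hL (hs j hj) (hq j hj) hLa (hon j hj)
    exact ⟨_, hπ, π, rfl⟩
  · rintro v hv j ⟨-, π, hπ⟩ j' ⟨-, π', hπ'⟩
    refine pRole_vertex (hπ.trans hπ'.symm) (fun e => hm ?_)
    rw [← e, hπ]
    exact (mem_sdiff.1 (mem_filter.1 hv).1).1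

lemma dir_ne_parallel {a : Option (ZMod p)} {z : Pt p} (h : z ∈ linePts (mline P.c a)) :
    P.dir z ≠ mdir a := by
  intro e
  have h1 : z ∈ linePts (lineAt P.star (mdir a)) := by rw [← e]; exact mem_dirFrom _ _
  refine pencil_ne_mline P (mdir a) a ?_
  rw [eq_lineAt h, mline_fst]
  exact (lineAt_congr h1).symm

lemma class_case {C : Finset (Vx p k)} {d : Option (ZMod p)} (R : P.Residual)
    (hcov : ∀ e, Valid G P e → ∃ π, vx G P e π ∈ C) (hC : #C ≤ p + k)
    (hd : ∀ l : PLine p, l.1 = d → (∀ a, l ≠ mline P.c a) → ∃ v, v ∈ C ∧ derived G P v = some l) :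
    False := by
  obtain ⟨a, rfl⟩ : ∃ a, mdir a = d := by
    rcases d with _ | v
    · exact ⟨none, rfl⟩
    · exact ⟨some (v * 2⁻¹), by simp [mdir, mul_comm v, ← mul_assoc, mul_inv_cancel₀ P.two_ne]⟩
  set m := mline P.c a with hm
  set L : Finset (PLine p) := ((univ : Finset (ZMod p)).image fun b => (mdir a, b)).erase m with hLdef
  have hmem : ∀ l : PLine p, l ∈ L ↔ l ≠ m ∧ l.1 = mdir a := by
    intro l
    simp only [hLdef, mem_erase, mem_image, mem_univ, true_and]
    exact and_congr_right fun _ => ⟨by rintro ⟨b, rfl⟩; rfl, fun h => ⟨l.2, by rw [← h]⟩⟩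
  have hL : Repd G P C L := fun l hl => by
    obtain ⟨h1, h2⟩ := (hmem l).1 hl
    refine hd l h2 fun b e => h1 ?_
    rw [e, hm]
    congr 1
    refine mdir_inj P.two_ne ?_
    rw [← h2, e, mline_fst]
  have hcard : p - 1 ≤ #L := by
    refine le_trans ?_ pred_card_le_card_erase
    rw [card_image_of_injective _ (fun x y h => (Prod.mk.inj h).2), card_univ, ZMod.card]
  have hsum := card_others hL
  have hp2 := (Fact.out : p.Prime).two_le
  have hb : #(others G P C L) ≤ k + 1 := by omega
  have hg := gain (G := G) (P := P) (s := mdir a) (E := ∅) hcov hL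
    ((hmem _).2 ⟨pencil_ne_mline P _ a, lineAt_fst _ _⟩)
    (fun l hl hne u hu => absurd (by
      rw [eq_lineAt hu, ((hmem l).1 hl).2]
      exact lineAt_congr (pos_on P _ u)) hne)
    (by rw [card_empty]; omega)
  have hsplit := card_filter_add_card_filter_not (s := others G P C L) (InTag G P (mdir a))
  have hLa : m ∉ L := fun h => ((hmem m).1 h).1 rfl
  have hon : ∀ r, P.rpt r ∈ linePts m → ∀ l ∈ L, P.rpt r ∈ linePts l → l = m := by
    intro r hr l hl hrl
    rw [eq_lineAt hrl, eq_lineAt hr, ((hmem l).1 hl).2, hm, mline_fst]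
  by_cases hmC : Vx.line m ∈ C
  · obtain ⟨π, hπ⟩ := resid (s := mdir a) hcov hL (dir_ne_parallel (fRole_mem P a 0))
      (R.class_free a 0).1 hLa (hon _ (fRole_mem P a 0))
    have hmo : Vx.line m ∈ (others G P C L).filter fun v => ¬ InTag G P (mdir a) v := by
      refine mem_filter.2 ⟨mem_others_line hL hmC hLa, ?_⟩
      rintro (⟨j, w, e⟩ | ⟨cl, e⟩)
      · exact colour_ne_line G P _ j w m e
      · simp at e
    have h2 : 2 ≤ #((others G P C L).filter fun v => ¬ InTag G P (mdir a) v) :=
      one_lt_card.2 ⟨_, hπ, _, hmo, fRole_not_line a 0 π⟩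
    omega
  · have h5 := dropped_card (s := mdir a) hcov hL hmC hLa univ
      (fun j _ => dir_ne_parallel (pRole_mem P a j)) (fun j _ => (R.class_free a j).2)
      (fun j _ => hon _ (pRole_mem P a j))
    simp only [card_univ, Fintype.card_fin] at h5
    omega

lemma star_case {C : Finset (Vx p k)} {o : Pt p} (R : P.Residual)
    (hcov : ∀ e, Valid G P e → ∃ π, vx G P e π ∈ C) (hC : #C ≤ p + k)
    (ho : ∀ l : PLine p, o ∈ linePts l → (∀ a, l ≠ mline P.c a) → ∃ v, v ∈ C ∧ derived G P v = some l) :
    False := by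
  set L : Finset (PLine p) :=
    ((univ : Finset (Option (ZMod p))).image (lineAt o)) \ (P.mThrough o).image (mline P.c) with hLdef
  have hmem : ∀ l : PLine p, l ∈ L ↔ o ∈ linePts l ∧ ∀ a, l ≠ mline P.c a := by
    intro l
    simp only [hLdef, mem_sdiff, mem_image, mem_univ, true_and, Params.mThrough, mem_filter]
    constructor
    · rintro ⟨⟨d, rfl⟩, h⟩
      exact ⟨mem_lineAt _ _, fun a e => h ⟨a, e ▸ mem_lineAt o d, e.symm⟩⟩
    · rintro ⟨h1, h2⟩
      exact ⟨⟨l.1, (eq_lineAt h1).symm⟩, fun ⟨a, _, e⟩ => h2 a e.symm⟩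
  have hL : Repd G P C L := fun l hl => ho l ((hmem l).1 hl).1 ((hmem l).1 hl).2
  have hcard : p + 1 ≤ #L + #(P.mThrough o) := by
    have h1 : #((univ : Finset (Option (ZMod p))).image (lineAt o)) = p + 1 := by
      rw [card_image_of_injective _ (fun x y h => by
        have := congrArg Prod.fst h; rwa [lineAt_fst, lineAt_fst] at this), card_univ]
      simp
    have h2 := le_card_sdiff ((P.mThrough o).image (mline P.c))
      ((univ : Finset (Option (ZMod p))).image (lineAt o))
    have h3 : #((P.mThrough o).image (mline P.c)) ≤ #(P.mThrough o) := card_image_le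
    rw [← hLdef, h1] at h2
    omega
  have hsum := card_others hL
  have hmu := R.through_le o
  have hb : #(others G P C L) + 1 ≤ k + #(P.mThrough o) := by omega
  set s := P.dir o with hsdef
  have hops : o ∈ linePts (P.pencil s) := mem_dirFrom _ _
  set E : Finset (Fin N) := univ.filter fun u => P.pos s u = o with hE
  have hE1 : #E ≤ 1 := card_le_one.2 fun u hu u' hu' =>
    P.pos_inj s (((mem_filter.1 hu).2).trans (mem_filter.1 hu').2.symm)
  have hEb : #E + #(others G P C L) ≤ k + 2 := by
    by_cases hne : E.Nonempty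
    · obtain ⟨u, hu⟩ := hne
      have hz : #(P.mThrough o) = 0 := by
        rw [Params.mThrough, card_eq_zero, filter_eq_empty_iff]
        intro a _ ha
        rw [← (mem_filter.1 hu).2] at ha
        exact inner_not_mline (P.pos_inner s u).1 (P.pos_inner s u).2.2 a ha
      omega
    · rw [not_nonempty_iff_eq_empty] at hne
      rw [hne, card_empty]
      omega
  have hg := gain (G := G) (P := P) (s := s) (E := E) hcov hL
    ((hmem _).2 ⟨hops, fun a => pencil_ne_mline P s a⟩)
    (fun l hl hne u hu => mem_filter.2 ⟨mem_univ _, by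
      by_contra h
      exact hne (two_points h hu ((hmem l).1 hl).1 (pos_on P s u) hops)⟩) hEb
  have hsplit := card_filter_add_card_filter_not (s := others G P C L) (InTag G P s)
  set Rest := (others G P C L).filter fun v => ¬ InTag G P s v with hRest
  have hres : #Rest + 1 ≤ #(P.mThrough o) := by omega
  by_cases hstar : o = P.star
  · have : #(P.mThrough o) = 0 := by
      rw [Params.mThrough, card_eq_zero, filter_eq_empty_iff]
      intro a _ ha
      exact star_not_mline P a (hstar ▸ ha)
    omega
  have hLa : ∀ a, mline P.c a ∉ L := fun a h => ((hmem _).1 h).2 a rfl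
  have hon : ∀ a, o ∈ linePts (mline P.c a) → ∀ z : Pt p, z ≠ o → z ∈ linePts (mline P.c a) →
      (P.dir z ≠ s) ∧ ∀ l ∈ L, z ∈ linePts l → l = mline P.c a := by
    intro a ha z hz hzm
    refine ⟨fun e => pencil_ne_mline P s a (two_points hz ?_ hops hzm ha), fun l hl hzl =>
      two_points hz hzl ((hmem l).1 hl).1 hzm ha⟩
    rw [← e]; exact mem_dirFrom _ _
  by_cases hp : ∃ a ∈ P.mThrough o, Vx.line (mline P.c a) ∉ C ∧ ∀ i, P.rpt (P.fRole a i) ≠ o
  · obtain ⟨a, ha, haC, hai⟩ := hp
    have ha' := (mem_filter.1 ha).2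
    have h1 := R.star_p o a hstar ha hai
    have h2 := dropped_card (s := s) hcov hL haC (hLa a)
      (univ.filter fun j => P.rpt (P.pRole a j) ≠ o ∧ ¬ P.Cov s (P.pRole a j))
      (fun j hj => (hon a ha' _ (mem_filter.1 hj).2.1 (pRole_mem P a j)).1)
      (fun j hj => (mem_filter.1 hj).2.2)
      (fun j hj => (hon a ha' _ (mem_filter.1 hj).2.1 (pRole_mem P a j)).2)
    rw [← hsdef] at h1
    rw [← hRest] at h2
    omega
  push Not at hp
  have hkept : ∀ a ∈ P.mThrough o, Vx.line (mline P.c a) ∈ C → Vx.line (mline P.c a) ∈ Rest := by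
    intro a _ h
    refine mem_filter.2 ⟨mem_others_line hL h (hLa a), ?_⟩
    rintro (⟨j, w, e⟩ | ⟨cl, e⟩)
    · exact colour_ne_line G P _ j w _ e
    · simp at e
  set M1 := (P.mThrough o).filter fun a => Vx.line (mline P.c a) ∈ C with hM1
  have hinj : #(M1.image fun a => (Vx.line (mline P.c a) : Vx p k)) = #M1 :=
    card_image_of_injective _ fun a b h => mline_inj (Vx.line.inj h)
  have hsub : M1.image (fun a => (Vx.line (mline P.c a) : Vx p k)) ⊆ Rest := by
    intro v hv
    obtain ⟨a, ha, rfl⟩ := mem_image.1 hv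
    exact hkept a (mem_filter.1 ha).1 (mem_filter.1 ha).2
  have hM1le : #M1 ≤ #Rest := hinj ▸ card_le_card hsub
  obtain ⟨a, ha, haC⟩ : ∃ a ∈ P.mThrough o, Vx.line (mline P.c a) ∉ C := by
    by_contra hc
    push Not at hc
    rw [hM1, filter_true_of_mem hc] at hM1le
    omega
  obtain ⟨i, hi⟩ := hp a ha haC
  obtain ⟨i', hi', hcov'⟩ := R.star_f o a i hi
  have ha' := (mem_filter.1 ha).2
  obtain ⟨π, hπ⟩ := resid (s := s) hcov hL (hon a ha' _ hi' (fRole_mem P a i')).1 hcov' (hLa a)
    (hon a ha' _ hi' (fRole_mem P a i')).2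
  have hnew : vx G P (.role (P.fRole a i')) π ∉ M1.image fun b => (Vx.line (mline P.c b) : Vx p k) := by
    intro h
    obtain ⟨b, hb, e⟩ := mem_image.1 h
    have hbo := (mem_filter.1 (mem_filter.1 hb).1).2
    have hπd : π = .inl (mline P.c b).1 := by
      have := congrArg Vx.part e
      rw [vx_part] at this
      exact this.symm
    subst hπd
    simp only [vx, dline] at e
    split_ifs at e
    simp only [Vx.line.injEq] at e
    have hz : P.rpt (P.fRole a i') ∈ linePts (mline P.c b) := e ▸ mem_lineAt _ _
    have hba : b = a := mline_inj (two_points hi' hz hbo (fRole_mem P a i') ha')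
    exact haC (hba ▸ (mem_filter.1 hb).2)
  have hlt : #M1 + 1 ≤ #Rest := by
    rw [← hinj, ← card_insert_of_notMem hnew]
    exact card_le_card (insert_subset_iff.2 ⟨hπ, hsub⟩)
  have hall : P.mThrough o ⊆ insert a M1 := by
    intro b hb
    by_cases hbC : Vx.line (mline P.c b) ∈ C
    · exact mem_insert_of_mem (mem_filter.2 ⟨hb, hbC⟩)
    · obtain ⟨j, hj⟩ := hp b hb hbC
      rw [R.star_f_one o a b i j hi hj]
      exact mem_insert_self _ _
  have := (card_le_card hall).trans (card_insert_le _ _)
  omega

/-- The construction gives the final statement. -/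
theorem counter_stmt (hG : GadgetStmt) (hP : ParamStmt) (hF : ForcedStmt) : CounterStmt := by
  obtain ⟨k, N, ⟨G⟩⟩ := hG
  obtain ⟨p₀, h0⟩ := hF k
  obtain ⟨p, hp, hpB, P, R⟩ := hP N p₀
  refine counter_of_cover G P fun C hcov => ?_
  by_contra hlt
  have hC : #C ≤ p + k := by omega
  set S : Finset (PLine p) := univ.filter fun l => ∃ v, v ∈ C ∧ derived G P v = some l with hS
  have hSC : #S ≤ p + k := by
    refine le_trans ?_ hC
    refine le_trans ?_ (card_image_le (f := derived G P))
    rw [← card_image_of_injective S (Option.some_injective _)]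
    refine card_le_card fun x hx => ?_
    obtain ⟨l, hl, rfl⟩ := mem_image.1 hx
    obtain ⟨v, hv, e⟩ := (mem_filter.1 hl).2
    exact mem_image.2 ⟨v, hv, e⟩
  have hcover : ∀ z : Pt p, Inner z → z ≠ (0, P.nu) → z.1 ≠ P.c → ∃ l ∈ S, z ∈ linePts l := by
    intro z h1 h2 h3
    obtain ⟨π, hπ⟩ := hcov (.gen z) ⟨h1, h2, h3⟩
    rcases π with d | j
    · exact ⟨lineAt z d, mem_filter.2 ⟨mem_univ _, _, hπ, rfl⟩, mem_lineAt _ _⟩
    · simp only [vx, evec, colour_gen] at hπ
      refine ⟨P.pencil (tag P (Ed.gen z : Ed p k N)), mem_filter.2 ⟨mem_univ _, _, hπ, ?_⟩, mem_dirFrom _ _⟩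
      simp [derived]
  rcases h0 p hp hpB P.nu P.c S hSC hcover with ⟨d, hd⟩ | ⟨o, ho⟩
  · exact class_case R hcov hC fun l h1 h2 => (mem_filter.1 (hd l h1 h2)).2
  · exact star_case R hcov hC fun l h1 h2 => (mem_filter.1 (ho l h1 h2)).2

end Vale.Agent.P045.V4
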