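import Mathlib
import Vale.Agent.P045.InteriorPencil

/-!
# P045: frozen definitions of the counterexample (host v4)

A finite gadget is placed on every line through a point inside a parabola. The tangents of the
parabola and one vertical line carry only a few special edges.
-/

open Finset
open scoped Classical

namespace Vale.Agent.P045.V4

/-- The finite gadget: `k` colour parts, `N` slots, cells (class, slot, colours), marks (slot, colours),
a generic colour vector and eleven role vectors. -/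
structure Gadget (k N : ℕ) where
  cells : Finset (ℕ × Fin N × (Fin k → ℕ))
  marks : Finset (Fin N × (Fin k → ℕ))
  gen : Fin k → ℕ
  role : Fin 11 → Fin k → ℕ
  large : 300 ≤ k
  cell_cell : ∀ g ∈ cells, ∀ g' ∈ cells,
    g.2.1 = g'.2.1 ∨ g.1 = g'.1 ∨ ∃ j, g.2.2 j = g'.2.2 j
  cell_mark : ∀ g ∈ cells, ∀ m ∈ marks, g.2.1 = m.1 ∨ ∃ j, g.2.2 j = m.2 j
  cell_gen : ∀ g ∈ cells, ∃ j, g.2.2 j = gen j
  cell_role : ∀ g ∈ cells, ∀ r, ∃ j, g.2.2 j = role r j
  role_disj : ∀ r r', r ≠ r' → ∀ j, role r j ≠ role r' j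
  role_gen : ∀ r j, role r j ≠ gen j
  keep : ∀ (T : Finset (Fin N)) (C : Finset (Fin k × ℕ)) (S : Finset ℕ),
    (∀ g ∈ cells, g.2.1 ∈ T ∨ g.1 ∈ S ∨ ∃ j, (j, g.2.2 j) ∈ C) →
    (#T ≤ 3 → k ≤ #C + #S) ∧ (4 ≤ #T → k + 3 ≤ #T + (#C + #S))
  drop : ∀ (T : Finset (Fin N)) (C : Finset (Fin k × ℕ)) (S : Finset ℕ),
    (∀ g ∈ cells, g.2.1 ∈ T ∨ g.1 ∈ S ∨ ∃ j, (j, g.2.2 j) ∈ C) →
    (∀ m ∈ marks, m.1 ∈ T ∨ ∃ j, (j, m.2 j) ∈ C) → (∃ j, (j, gen j) ∈ C) →
    (#T ≤ 3 → k + 1 ≤ #C + #S) ∧ (4 ≤ #T → k + 4 ≤ #T + (#C + #S))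

/-- Existence of gadgets. -/
def GadgetStmt : Prop := ∃ k N : ℕ, Nonempty (Gadget k N)

section Plane

variable {p : ℕ} [Fact p.Prime]

/-- A point of the plane. -/
abbrev Pt (p : ℕ) := ZMod p × ZMod p

/-- Interior of the parabola `y = x ^ 2` (in the sense of no tangent through the point). -/
def Inner (z : Pt p) : Prop := ¬ IsSquare (z.1 ^ 2 - z.2)

/-- The line through a point in a given direction. -/
def lineAt (z : Pt p) : Option (ZMod p) → PLine p
  | none => (none, z.1)
  | some a => (some a, z.2 - a * z.1)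

/-- The direction from `o` to `z`. -/
noncomputable def dirFrom (o z : Pt p) : Option (ZMod p) :=
  if z.1 = o.1 then none else some ((z.2 - o.2) / (z.1 - o.1))

/-- The thinned line with a given index: a tangent, or the vertical line `x = c`. -/
def mline (c : ZMod p) : Option (ZMod p) → PLine p
  | none => (none, c)
  | some a => (some (2 * a), -a ^ 2)

/-- The direction of a thinned line. -/
def mdir : Option (ZMod p) → Option (ZMod p)
  | none => none
  | some a => some (2 * a)

/-- The five shifts. -/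
def shift (p : ℕ) (i : Fin 5) : ZMod p := 2 * 4 ^ (i : ℕ)

/-- A role: one of five exterior points of a tangent, or one of five interior points of `x = c`. -/
abbrev Role (p : ℕ) := ZMod p × Fin 5 ⊕ Fin 5

/-- The point of a role. -/
def rolePt (c : ZMod p) (y : Fin 5 → ZMod p) : Role p → Pt p
  | .inl (a, i) => Interior.pt a (a + shift p i)
  | .inr i => (c, y i)

/-- The numerical parameters of the host and their elementary properties. -/
structure Params (p : ℕ) [Fact p.Prime] (N : ℕ) where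
  nu : ZMod p
  c : ZMod p
  y : Fin 5 → ZMod p
  chi : Option (ZMod p) → Fin 12
  slot : Role p → Fin 11
  pos : Option (ZMod p) → Fin N → Pt p
  two_ne : (2 : ZMod p) ≠ 0
  shift_inj : Function.Injective (shift p)
  shift_add : ∀ i j, shift p i + shift p j ≠ 0
  star_inner : Inner ((0, nu) : Pt p)
  c_ne : c ≠ 0
  y_inner : ∀ i, Inner ((c, y i) : Pt p)
  y_inj : Function.Injective y
  chi_none : ∀ a, chi (some a) ≠ chi none
  chi_shift : ∀ a i, chi (some a) ≠ chi (some (a + shift p i))
  slot_inj : ∀ r r', dirFrom ((0, nu) : Pt p) (rolePt c y r) = dirFrom (0, nu) (rolePt c y r') →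
    slot r = slot r' → r = r'
  pos_inj : ∀ s, Function.Injective (pos s)
  pos_inner : ∀ s u, Inner (pos s u) ∧ pos s u ≠ (0, nu) ∧ (pos s u).1 ≠ c
  pos_dir : ∀ s u, dirFrom (0, nu) (pos s u) = s

variable {N : ℕ} (P : Params p N)

/-- The centre of the pencil. -/
def Params.star : Pt p := (0, P.nu)

/-- The pencil line of a direction. -/
def Params.pencil (s : Option (ZMod p)) : PLine p := lineAt P.star s

/-- The direction of the pencil line of a point. -/
noncomputable def Params.dir (z : Pt p) : Option (ZMod p) := dirFrom P.star z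

/-- The point of a role. -/
def Params.rpt (r : Role p) : Pt p := rolePt P.c P.y r

/-- The roles lacking the line with index `a`. -/
def Params.fRole (_P : Params p N) : Option (ZMod p) → Fin 5 → Role p
  | none, i => .inr i
  | some a, i => .inl (a, i)

/-- The roles lying on the line with index `a` and keeping it. -/
def Params.pRole : Option (ZMod p) → Fin 5 → Role p
  | none, j => .inl (P.c - shift p j * 2⁻¹, j)
  | some a, j => .inl (a - shift p j, j)

/-- A role whose merged colours meet the pencil line of direction `s`. -/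
def Params.Cov (s : Option (ZMod p)) (q : Role p) : Prop :=
  ∃ a i j, (q = P.fRole a i ∧ P.dir (P.rpt (P.pRole a j)) = s) ∨
    (q = P.pRole a j ∧ P.dir (P.rpt (P.fRole a i)) = s)

/-- The thinned lines through a point. -/
noncomputable def Params.mThrough (C : Pt p) : Finset (Option (ZMod p)) :=
  univ.filter fun a => C ∈ linePts (mline P.c a)

/-- What the cover count needs from the algebra of the parameters. -/
structure Params.Residual : Prop where
  class_free : ∀ a i, ¬ P.Cov (mdir a) (P.fRole a i) ∧ ¬ P.Cov (mdir a) (P.pRole a i)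
  through_le : ∀ C, #(P.mThrough C) ≤ 3
  star_p : ∀ C a, C ≠ P.star → a ∈ P.mThrough C → (∀ i, P.rpt (P.fRole a i) ≠ C) →
    #(P.mThrough C) ≤
      #(univ.filter fun j => P.rpt (P.pRole a j) ≠ C ∧ ¬ P.Cov (P.dir C) (P.pRole a j))
  star_f : ∀ C a i, P.rpt (P.fRole a i) = C →
    ∃ i', P.rpt (P.fRole a i') ≠ C ∧ ¬ P.Cov (P.dir C) (P.fRole a i')
  star_f_one : ∀ C a b i j, P.rpt (P.fRole a i) = C → P.rpt (P.fRole b j) = C → a = b

end Plane

/-- Parameters exist for arbitrarily large primes. -/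
def ParamStmt : Prop :=
  ∀ N B : ℕ, ∃ p, ∃ hp : Fact p.Prime, B ≤ p ∧ ∃ P : @Params p hp N, P.Residual

/-- Few lines covering the interior, off two exceptional pieces, contain all other lines of a
parallel class or of a pencil. -/
def ForcedStmt : Prop :=
  ∀ K : ℕ, ∃ p₀ : ℕ, ∀ p, ∀ _ : Fact p.Prime, p₀ ≤ p → ∀ (nu c : ZMod p) (S : Finset (PLine p)),
    #S ≤ p + K →
    (∀ z : Pt p, Inner z → z ≠ (0, nu) → z.1 ≠ c → ∃ l ∈ S, z ∈ linePts l) →
    (∃ d, ∀ l : PLine p, l.1 = d → (∀ a, l ≠ mline c a) → l ∈ S) ∨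
    (∃ o : Pt p, ∀ l : PLine p, o ∈ linePts l → (∀ a, l ≠ mline c a) → l ∈ S)

/-- An intersecting partite uniform family whose covering number is at least the number of parts. -/
def CounterStmt : Prop :=
  ∃ (r : ℕ) (V : Type) (_ : Fintype V) (part : V → Fin r) (H : Finset (Finset V)),
    2 ≤ r ∧ H.Nonempty ∧ (∀ e ∈ H, ∀ i, ∃! v, v ∈ e ∧ part v = i) ∧
      (∀ e ∈ H, ∀ f ∈ H, ∃ v, v ∈ e ∧ v ∈ f) ∧
      ∀ C : Finset V, (∀ e ∈ H, ∃ v ∈ e, v ∈ C) → r ≤ #C

end Vale.Agent.P045.V4
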