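import Mathlib
import Vale.Agent.P045.V4.Defs
import Vale.Agent.P045.InteriorForced

/-!
# P045: forced lines of the host v4
-/

open Finset
open scoped Classical

namespace Vale.Agent.P045.V4

open Interior

variable {p : ℕ} [Fact p.Prime]

lemma not_special {c : ZMod p} (h3 : 3 ≤ p) {l : PLine p} (h : ∀ a, l ≠ mline c a) :
    l ∉ specialLines c := by
  intro hl
  rcases mem_specialLines.1 hl with hd | rfl
  · obtain ⟨(_ | a), b⟩ := l
    · exact disc_none h3 b hd
    · have h2 := Interior.two_ne (p := p) h3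
      have h4 : (4 : ZMod p) ≠ 0 := by
        rw [show (4 : ZMod p) = 2 * 2 by norm_num]; exact mul_ne_zero h2 h2
      refine h (some (a / 2)) ?_
      simp only [mline, Prod.mk.injEq, Option.some.injEq]
      refine ⟨by field_simp, ?_⟩
      rw [(disc_some_eq_zero h3).1 hd]
      field_simp
      ring
  · exact h none rfl

/-- Forced lines, in the form used by the host. -/
theorem forced_stmt : ForcedStmt := by
  intro K
  obtain ⟨p₀, h⟩ := forced_lines K
  refine ⟨p₀ + 3, fun p hF hp nu c S hS hcov => ?_⟩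
  rcases h p hF (by omega) S (0, nu) c hS (fun x y hi ho hx => hcov (x, y) hi ho hx) with
    ⟨Q, hQ⟩ | ⟨s, hs⟩
  · exact Or.inr ⟨Q, fun l hl hm =>
      hQ (mem_sdiff.2 ⟨mem_pencil.2 hl, not_special (by omega) hm⟩)⟩
  · exact Or.inl ⟨s, fun l hl hm =>
      hs (mem_sdiff.2 ⟨mem_slopeClass.2 hl, not_special (by omega) hm⟩)⟩

end Vale.Agent.P045.V4
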