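import Mathlib
import Vale.Agent.P045.V4.Defs
import Vale.Agent.P045.Gadget.Main

/-!
# P045: the gadget in the form used by the host
-/

open Finset
open scoped Classical

namespace Vale.Agent.P045.V4

/-- A gadget in the form of the host exists. -/
theorem gadget_stmt : GadgetStmt := by
  obtain ⟨g, hk⟩ := gadget_exists 11 300
  set N := (g.G.image GEdge.slot ∪ g.N.image NEdge.slot).sup id + 1 with hN
  let f : ℕ → Fin N := fun u => ⟨min u (N - 1), by omega⟩
  have fG : ∀ e ∈ g.G, (f e.slot).val = e.slot := fun e he => by
    have : e.slot ≤ (g.G.image GEdge.slot ∪ g.N.image NEdge.slot).sup id :=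
      le_sup (f := id) (mem_union_left _ (mem_image_of_mem _ he))
    simp only [f]
    omega
  have fN : ∀ e ∈ g.N, (f e.slot).val = e.slot := fun e he => by
    have : e.slot ≤ (g.G.image GEdge.slot ∪ g.N.image NEdge.slot).sup id :=
      le_sup (f := id) (mem_union_right _ (mem_image_of_mem _ he))
    simp only [f]
    omega
  refine ⟨g.k, N, ⟨{
    cells := g.G.image fun e => (e.col, f e.slot, e.vec)
    marks := g.N.image fun e => (f e.slot, e.vec)
    gen := g.t0
    role := g.w
    large := hk
    cell_cell := ?_
    cell_mark := ?_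
    cell_gen := ?_
    cell_role := ?_
    role_disj := fun r r' hr j e => hr (g.w_inj r r' j e)
    role_gen := g.w_ne_t0
    keep := ?_
    drop := ?_ }⟩⟩
  · intro a ha b hb
    obtain ⟨e, he, rfl⟩ := mem_image.1 ha
    obtain ⟨e', he', rfl⟩ := mem_image.1 hb
    by_cases hs : e.slot = e'.slot
    · exact Or.inl (congrArg f hs)
    by_cases hc : e.col = e'.col
    · exact Or.inr (Or.inl hc)
    · exact Or.inr (Or.inr (g.gg e he e' he' hs hc))
  · intro a ha b hb
    obtain ⟨e, he, rfl⟩ := mem_image.1 ha
    obtain ⟨e', he', rfl⟩ := mem_image.1 hb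
    by_cases hs : e.slot = e'.slot
    · exact Or.inl (congrArg f hs)
    · exact Or.inr (g.gn e he e' he' hs)
  · intro a ha
    obtain ⟨e, he, rfl⟩ := mem_image.1 ha
    exact g.gt e he
  · intro a ha r
    obtain ⟨e, he, rfl⟩ := mem_image.1 ha
    exact g.gw e he r
  · intro T C S hc
    have key := g.keep (T.image Fin.val) C S fun e he => by
      rcases hc _ (mem_image_of_mem _ he) with h | h | h
      · exact Or.inl (fG e he ▸ mem_image_of_mem Fin.val h)
      · exact Or.inr (Or.inl h)
      · exact Or.inr (Or.inr h)
    rw [card_image_of_injective _ Fin.val_injective] at key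
    constructor <;> intro hT <;> omega
  · intro T C S hc hm h0
    have key := g.drop (T.image Fin.val) C S (fun e he => by
      rcases hc _ (mem_image_of_mem _ he) with h | h | h
      · exact Or.inl (fG e he ▸ mem_image_of_mem Fin.val h)
      · exact Or.inr (Or.inl h)
      · exact Or.inr (Or.inr h)) (fun e he => by
      rcases hm _ (mem_image_of_mem _ he) with h | h
      · exact Or.inl (fN e he ▸ mem_image_of_mem Fin.val h)
      · exact Or.inr h) h0
    rw [card_image_of_injective _ Fin.val_injective] at key
    constructor <;> intro hT <;> omega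

end Vale.Agent.P045.V4
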