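import Vale.Agent.P045.V4.Defs

/-!
# P045: elementary geometry of host v4
-/

open Finset
open scoped Classical

namespace Vale.Agent.P045.V4

variable {p N : ℕ} [Fact p.Prime] (P : Params p N)

lemma lineAt_fst (z : Pt p) (d : Option (ZMod p)) : (lineAt z d).1 = d := by cases d <;> rfl

lemma mem_lineAt (z : Pt p) (d : Option (ZMod p)) : z ∈ linePts (lineAt z d) := by
  cases d with
  | none => exact mem_linePts_none.2 rfl
  | some a => exact mem_linePts_some.2 (by ring)

lemma eq_lineAt {z : Pt p} {l : PLine p} (h : z ∈ linePts l) : l = lineAt z l.1 := by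
  obtain ⟨(_ | a), b⟩ := l
  · simp [lineAt, (mem_linePts_none.1 h)]
  · simp only [lineAt, Prod.mk.injEq, true_and]
    linear_combination -(mem_linePts_some.1 h)

lemma lineAt_congr {z w : Pt p} {d : Option (ZMod p)} (h : w ∈ linePts (lineAt z d)) :
    lineAt w d = lineAt z d := by
  have e := eq_lineAt h
  rw [lineAt_fst] at e
  exact e.symm

lemma mem_dirFrom (o z : Pt p) : z ∈ linePts (lineAt o (dirFrom o z)) := by
  unfold dirFrom
  split_ifs with h
  · exact mem_linePts_none.2 h
  · refine mem_linePts_some.2 ?_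
    have : z.1 - o.1 ≠ 0 := sub_ne_zero.2 h
    field_simp
    ring

lemma dirFrom_eq {o z : Pt p} {d : Option (ZMod p)} (h : z ∈ linePts (lineAt o d)) (hne : z ≠ o) :
    dirFrom o z = d := by
  by_contra hd
  have h1 := mem_dirFrom o z
  have hl : lineAt o (dirFrom o z) ≠ lineAt o d := fun e => hd (by
    have := congrArg Prod.fst e; rwa [lineAt_fst, lineAt_fst] at this)
  exact hne (card_le_one.1 (linePts_meet_le _ _ hl) z (mem_inter.2 ⟨h1, h⟩) o
    (mem_inter.2 ⟨mem_lineAt o _, mem_lineAt o _⟩))

lemma two_points {l l' : PLine p} {z w : Pt p} (hne : z ≠ w) (h1 : z ∈ linePts l) (h2 : w ∈ linePts l)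
    (h3 : z ∈ linePts l') (h4 : w ∈ linePts l') : l = l' := by
  by_contra h
  exact hne (card_le_one.1 (linePts_meet_le _ _ h) z (mem_inter.2 ⟨h1, h3⟩) w
    (mem_inter.2 ⟨h2, h4⟩))

lemma mline_fst (c : ZMod p) (a : Option (ZMod p)) : (mline c a).1 = mdir a := by cases a <;> rfl

lemma mem_mline_some {c a : ZMod p} {z : Pt p} :
    z ∈ linePts (mline c (some a)) ↔ z.2 = 2 * a * z.1 - a ^ 2 := by
  rw [mline, mem_linePts_some, ← sub_eq_add_neg]

lemma mem_mline_none {c : ZMod p} {z : Pt p} : z ∈ linePts (mline c none) ↔ z.1 = c := by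
  rw [mline, mem_linePts_none]

lemma inner_not_tangent {c a : ZMod p} {z : Pt p} (hz : Inner z) :
    z ∉ linePts (mline c (some a)) := fun h =>
  hz ⟨z.1 - a, by rw [mem_mline_some.1 h]; ring⟩

lemma inner_not_mline {c : ZMod p} {z : Pt p} (hz : Inner z) (hc : z.1 ≠ c) (a : Option (ZMod p)) :
    z ∉ linePts (mline c a) := by
  cases a with
  | none => exact fun h => hc (mem_mline_none.1 h)
  | some a => exact inner_not_tangent hz

lemma star_not_mline (a : Option (ZMod p)) : P.star ∉ linePts (mline P.c a) :=
  inner_not_mline P.star_inner (fun h => P.c_ne h.symm) a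

lemma mdir_inj (h2 : (2 : ZMod p) ≠ 0) : Function.Injective (mdir (p := p)) := by
  rintro (_ | a) (_ | b) h <;> simp [mdir] at h ⊢
  exact h.resolve_right h2

lemma pencil_ne_mline (s a : Option (ZMod p)) : P.pencil s ≠ mline P.c a := fun e =>
  star_not_mline P a (e ▸ mem_lineAt P.star s)

lemma pos_on (s : Option (ZMod p)) (u : Fin N) : P.pos s u ∈ linePts (P.pencil s) := by
  have h := mem_dirFrom P.star (P.pos s u)
  rwa [show dirFrom P.star (P.pos s u) = s from P.pos_dir s u] at h

lemma rpt_inl (a : ZMod p) (i : Fin 5) :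
    P.rpt (.inl (a, i)) = ((a + (a + shift p i)) / 2, a * (a + shift p i)) := rfl

lemma rpt_inl_exterior (a : ZMod p) (i : Fin 5) : ¬ Inner (P.rpt (.inl (a, i))) := fun h => by
  refine h ⟨shift p i / 2, ?_⟩
  rw [rpt_inl]
  have := P.two_ne
  field_simp
  ring

lemma rpt_inj : Function.Injective P.rpt := by
  have h2 := P.two_ne
  rintro (⟨a, i⟩ | i) (⟨b, j⟩ | j) h
  · rw [rpt_inl, rpt_inl, Prod.mk.injEq, div_left_inj' h2] at h
    obtain ⟨hs, hm⟩ := h
    have h' : (a - b) * (a - (b + shift p j)) = 0 := by linear_combination a * hs - hm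
    rcases mul_eq_zero.1 h' with e | e
    · have hab := sub_eq_zero.1 e
      subst hab
      have : shift p i = shift p j := by linear_combination hs
      rw [P.shift_inj this]
    · exact absurd (show shift p i + shift p j = 0 by linear_combination hs - 2 * e) (P.shift_add i j)
  · exact absurd (show Inner (P.rpt (.inl (a, i))) by rw [h]; exact P.y_inner j) (rpt_inl_exterior P a i)
  · exact absurd (show Inner (P.rpt (.inl (b, j))) by rw [← h]; exact P.y_inner i) (rpt_inl_exterior P b j)
  · simp only [Params.rpt, rolePt, Prod.mk.injEq, true_and] at h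
    rw [P.y_inj h]

lemma fRole_inj {a b : Option (ZMod p)} {i j : Fin 5} (h : P.fRole a i = P.fRole b j) :
    a = b ∧ i = j := by
  cases a <;> cases b <;> simp_all [Params.fRole]

lemma fRole_mem (a : Option (ZMod p)) (i : Fin 5) :
    P.rpt (P.fRole a i) ∈ linePts (mline P.c a) := by
  have := P.two_ne
  cases a with
  | none => exact mem_mline_none.2 rfl
  | some a =>
      refine mem_mline_some.2 ?_
      rw [Params.fRole, rpt_inl]
      field_simp
      ring

lemma pRole_mem (a : Option (ZMod p)) (j : Fin 5) :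
    P.rpt (P.pRole a j) ∈ linePts (mline P.c a) := by
  have := P.two_ne
  cases a with
  | none =>
      refine mem_mline_none.2 ?_
      rw [Params.pRole, rpt_inl]
      field_simp
      ring
  | some a =>
      refine mem_mline_some.2 ?_
      rw [Params.pRole, rpt_inl]
      field_simp
      ring

lemma role_on_mline {r : Role p} {a : Option (ZMod p)} (h : P.rpt r ∈ linePts (mline P.c a)) :
    (∃ i, r = P.fRole a i) ∨ ∃ j, r = P.pRole a j := by
  have h2 := P.two_ne
  rcases r with ⟨b, i⟩ | i
  · cases a with
    | none =>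
        rw [mem_mline_none, rpt_inl] at h
        refine Or.inr ⟨i, ?_⟩
        simp only [Params.pRole, Sum.inl.injEq, Prod.mk.injEq, and_true]
        have : b + (b + shift p i) = P.c * 2 := (div_eq_iff h2).1 h
        field_simp
        linear_combination this
    | some a =>
        rw [mem_mline_some, rpt_inl] at h
        simp only at h
        field_simp at h
        have h' : (a - b) * (a - (b + shift p i)) = 0 := by linear_combination h
        rcases mul_eq_zero.1 h' with e | e
        · exact Or.inl ⟨i, by rw [Params.fRole, sub_eq_zero.1 e]⟩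
        · refine Or.inr ⟨i, ?_⟩
          simp only [Params.pRole, Sum.inl.injEq, Prod.mk.injEq, and_true]
          linear_combination -e
  · cases a with
    | none => exact Or.inl ⟨i, rfl⟩
    | some a => exact absurd h (inner_not_tangent (P.y_inner i))

lemma rpt_ne_star (r : Role p) : P.rpt r ≠ P.star := fun h => by
  rcases r with ⟨a, i⟩ | i
  · exact rpt_inl_exterior P a i (by rw [h]; exact P.star_inner)
  · exact P.c_ne (congrArg Prod.fst h)

end Vale.Agent.P045.V4
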