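import Vale.Agent.P045.V4.Geometry

/-!
# P045: the intersecting partite family of host v4
-/

open Finset
open scoped Classical

namespace Vale.Agent.P045.V4

/-- A part: a direction or one of the `k` colour parts. -/
abbrev Part (p k : ℕ) := Option (ZMod p) ⊕ Fin k

/-- Vertices. -/
inductive Vx (p k : ℕ) where
  | line (l : PLine p)
  | spec (s : Option (ZMod p)) (cl : ℕ)
  | inf (a : Option (ZMod p))
  | col (j : Fin k) (s : Option (ZMod p)) (v : ℕ)
  | mrg (j : Fin k) (a : Option (ZMod p)) (i i' : Fin 5)

/-- The part of a vertex. -/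
def Vx.part {p k : ℕ} : Vx p k → Part p k
  | .line l => .inl l.1
  | .spec s _ => .inl s
  | .inf none => .inl none
  | .inf (some a) => .inl (some (2 * a))
  | .col j _ _ => .inr j
  | .mrg j _ _ _ => .inr j

/-- Edges. -/
inductive Ed (p k N : ℕ) where
  | gen (z : Pt p)
  | cell (s : Option (ZMod p)) (g : ℕ × Fin N × (Fin k → ℕ))
  | mark (s : Option (ZMod p)) (m : Fin N × (Fin k → ℕ))
  | role (r : Role p)

variable {p k N : ℕ} [Fact p.Prime] (G : Gadget k N) (P : Params p N)

/-- The index of the thinned line that a role lacks. -/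
def lackIdx : Role p → Option (ZMod p)
  | .inl (a, _) => some a
  | .inr _ => none

lemma lackIdx_fRole (a : Option (ZMod p)) (i : Fin 5) : lackIdx (P.fRole a i) = a := by
  cases a <;> rfl

/-- The point of an edge. -/
def epoint : Ed p k N → Pt p
  | .gen z => z
  | .cell s g => P.pos s g.2.1
  | .mark s m => P.pos s m.1
  | .role r => P.rpt r

/-- The colour vector of an edge. -/
def evec : Ed p k N → Fin k → ℕ
  | .gen _ => G.gen
  | .cell _ g => g.2.2
  | .mark _ m => m.2
  | .role r => G.role (P.slot r)

/-- The pencil direction of an edge. -/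
noncomputable def tag (e : Ed p k N) : Option (ZMod p) := P.dir (epoint P e)

/-- The vertex of an edge in a direction part. -/
noncomputable def dline : Ed p k N → Option (ZMod p) → Vx p k
  | .gen z, d => .line (lineAt z d)
  | .cell s g, d => if d = s then .spec s g.1 else .line (lineAt (P.pos s g.2.1) d)
  | .mark s m, d => .line (lineAt (P.pos s m.1) d)
  | .role r, d => if d = mdir (lackIdx r) then .inf (lackIdx r) else .line (lineAt (P.rpt r) d)

include G in
/-- The colour part used by the merge of `fRole a i` and `pRole a i'`. -/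
def partIdx (a : Option (ZMod p)) (i i' : Fin 5) : Fin k :=
  ⟨(P.chi a).val * 25 + i.val * 5 + i'.val, by
    have := G.large; have := (P.chi a).isLt; have := i.isLt; have := i'.isLt; omega⟩

/-- Some role on the pencil line `s` merges its colour `v` of part `j`. -/
def Merged (s : Option (ZMod p)) (j : Fin k) (v : ℕ) (t : Option (ZMod p) × Fin 5 × Fin 5) : Prop :=
  partIdx G P t.1 t.2.1 t.2.2 = j ∧ ∃ r, (r = P.fRole t.1 t.2.1 ∨ r = P.pRole t.1 t.2.2) ∧
    P.dir (P.rpt r) = s ∧ G.role (P.slot r) j = v

/-- The colour vertex of value `v` in part `j` on the pencil line `s`. -/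
noncomputable def colour (s : Option (ZMod p)) (j : Fin k) (v : ℕ) : Vx p k :=
  if h : ∃ t, Merged G P s j v t then
    .mrg j h.choose.1 h.choose.2.1 h.choose.2.2
  else .col j s v

/-- The vertex of an edge in a part. -/
noncomputable def vx (e : Ed p k N) : Part p k → Vx p k
  | .inl d => dline P e d
  | .inr j => colour G P (tag P e) j (evec G P e j)

/-- The edges of the family. -/
def Valid : Ed p k N → Prop
  | .gen z => Inner z ∧ z ≠ P.star ∧ z.1 ≠ P.c
  | .cell _ g => g ∈ G.cells
  | .mark _ m => m ∈ G.marks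
  | .role _ => True

lemma role_eq {r r' : Role p} {j : Fin k} (hd : P.dir (P.rpt r) = P.dir (P.rpt r'))
    (hv : G.role (P.slot r) j = G.role (P.slot r') j) : r = r' := by
  refine P.slot_inj r r' hd ?_
  by_contra hne
  exact G.role_disj _ _ hne j hv

lemma merged_unique {s : Option (ZMod p)} {j : Fin k} {v : ℕ} {t t' : Option (ZMod p) × Fin 5 × Fin 5}
    (h : Merged G P s j v t) (h' : Merged G P s j v t') : t = t' := by
  obtain ⟨a, i, i'⟩ := t
  obtain ⟨b, n, n'⟩ := t'
  obtain ⟨hj, r, hr, hd, hv⟩ := h
  obtain ⟨hj', r', hr', hd', hv'⟩ := h'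
  have hrr : r = r' := role_eq G P (hd.trans hd'.symm) (hv.trans hv'.symm)
  have he := congrArg Fin.val (hj.trans hj'.symm)
  simp only [partIdx] at he
  have := i.isLt; have := i'.isLt; have := n.isLt; have := n'.isLt
  have hchi : P.chi a = P.chi b := Fin.ext (by omega)
  have hi : i = n := Fin.ext (by omega)
  have hi' : i' = n' := Fin.ext (by omega)
  subst hi hi' hrr
  have key : ∀ a b : Option (ZMod p), P.chi a = P.chi b → P.fRole a i ≠ P.pRole b i' := by
    intro a b hc e
    rcases a with _ | a <;> rcases b with _ | b <;>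
      simp only [Params.fRole, Params.pRole, reduceCtorEq, Sum.inl.injEq, Prod.mk.injEq] at e
    · exact P.chi_none a hc
    · obtain ⟨e1, rfl⟩ := e
      refine P.chi_shift a i ?_
      rwa [show a + shift p i = b by rw [e1]; ring]
  have hab : a = b := by
    rcases hr with e | e <;> rcases hr' with e' | e'
    · exact (fRole_inj P (e.symm.trans e')).1
    · exact absurd (e.symm.trans e') (key a b hchi)
    · exact absurd (e'.symm.trans e) (key b a hchi.symm)
    · have e2 := e.symm.trans e'
      rcases a with _ | a <;> rcases b with _ | b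
      · rfl
      · exact absurd hchi (P.chi_none b).symm
      · exact absurd hchi (P.chi_none a)
      · simp only [Params.pRole, Sum.inl.injEq, Prod.mk.injEq, and_true, sub_left_inj] at e2
        rw [e2]
  rw [hab]

lemma colour_eq {s : Option (ZMod p)} {j : Fin k} {v : ℕ} {t : Option (ZMod p) × Fin 5 × Fin 5}
    (h : Merged G P s j v t) : colour G P s j v = .mrg j t.1 t.2.1 t.2.2 := by
  have hex : ∃ t, Merged G P s j v t := ⟨t, h⟩
  rw [colour, dif_pos hex, merged_unique G P hex.choose_spec h]

lemma colour_gen (s : Option (ZMod p)) (j : Fin k) :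
    colour G P s j (G.gen j) = .col j s (G.gen j) := by
  rw [colour, dif_neg]
  rintro ⟨t, -, r, -, -, h⟩
  exact G.role_gen _ j h

lemma merged_pts {a : Option (ZMod p)} {r r' : Role p}
    (hr : P.rpt r ∈ linePts (mline P.c a)) (hr' : P.rpt r' ∈ linePts (mline P.c a))
    (hd : P.dir (P.rpt r) = P.dir (P.rpt r')) : r = r' := by
  by_contra hne
  exact pencil_ne_mline P _ a (two_points (fun e => hne (rpt_inj P e))
    (mem_dirFrom P.star (P.rpt r)) (by
      show P.rpt r' ∈ linePts (lineAt P.star (P.dir (P.rpt r)))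
      rw [hd]; exact mem_dirFrom P.star (P.rpt r')) hr hr')

lemma colour_inj {s : Option (ZMod p)} {j : Fin k} {v v' : ℕ}
    (h : colour G P s j v = colour G P s j v') : v = v' := by
  unfold colour at h
  split_ifs at h with h1 h2
  · obtain ⟨hj, r, hr, hd, hv⟩ := h1.choose_spec
    obtain ⟨hj', r', hr', hd', hv'⟩ := h2.choose_spec
    simp only [Vx.mrg.injEq, true_and] at h
    obtain ⟨e1, e2, e3⟩ := h
    rw [← e1, ← e2, ← e3] at hr'
    have hm : ∀ r, (r = P.fRole h1.choose.1 h1.choose.2.1 ∨ r = P.pRole h1.choose.1 h1.choose.2.2) →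
        P.rpt r ∈ linePts (mline P.c h1.choose.1) := by
      rintro r (rfl | rfl)
      · exact fRole_mem P _ _
      · exact pRole_mem P _ _
    rw [← hv, ← hv', merged_pts P (hm r hr) (hm r' hr') (hd.trans hd'.symm)]
  · exact (Vx.col.injEq .. ▸ h).2.2

lemma dline_part (e : Ed p k N) (d : Option (ZMod p)) : (dline P e d).part = .inl d := by
  cases e with
  | gen z => simp [dline, Vx.part, lineAt_fst]
  | mark s m => simp [dline, Vx.part, lineAt_fst]
  | cell s g => simp only [dline]; split_ifs with h <;> simp [Vx.part, lineAt_fst, h]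
  | role r =>
      simp only [dline]
      split_ifs with h
      · subst h
        cases lackIdx r <;> rfl
      · simp [Vx.part, lineAt_fst]

lemma vx_part (e : Ed p k N) (π : Part p k) : (vx G P e π).part = π := by
  cases π with
  | inl d => exact dline_part P e d
  | inr j => simp only [vx, colour]; split_ifs <;> rfl

/-- An edge keeps the line of a direction. -/
def Keeps (e : Ed p k N) (d : Option (ZMod p)) : Prop := dline P e d = .line (lineAt (epoint P e) d)

lemma keeps_or (e : Ed p k N) (d : Option (ZMod p)) :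
    Keeps P e d ∨ (∃ g, e = .cell d g) ∨ ∃ r, e = .role r ∧ d = mdir (lackIdx r) := by
  cases e with
  | gen z => exact Or.inl rfl
  | mark s m => exact Or.inl rfl
  | cell s g =>
      by_cases h : d = s
      · exact Or.inr (Or.inl ⟨g, by rw [h]⟩)
      · exact Or.inl (by simp [Keeps, dline, h, epoint])
  | role r =>
      by_cases h : d = mdir (lackIdx r)
      · exact Or.inr (Or.inr ⟨r, rfl, h⟩)
      · exact Or.inl (by simp [Keeps, dline, h, epoint])

lemma lack_unique (e : Ed p k N) {d d' : Option (ZMod p)} (h : ¬ Keeps P e d) (h' : ¬ Keeps P e d') :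
    d = d' := by
  rcases (keeps_or P e d).resolve_left h with ⟨g, rfl⟩ | ⟨r, rfl, rfl⟩
  · rcases (keeps_or P _ d').resolve_left h' with ⟨g', e'⟩ | ⟨r', e', -⟩
    · simp only [Ed.cell.injEq] at e'; exact e'.1
    · simp at e'
  · rcases (keeps_or P _ d').resolve_left h' with ⟨g', e'⟩ | ⟨r', e', hd⟩
    · simp at e'
    · simp only [Ed.role.injEq] at e'; rw [hd, e']

lemma tag_cell (s : Option (ZMod p)) (g : ℕ × Fin N × (Fin k → ℕ)) :
    tag P (Ed.cell s g) = s := P.pos_dir s g.2.1

lemma tag_mark (s : Option (ZMod p)) (m : Fin N × (Fin k → ℕ)) :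
    tag P (Ed.mark s m) = s := P.pos_dir s m.1

lemma epoint_ne_star {e : Ed p k N} (he : Valid G P e) : epoint P e ≠ P.star := by
  cases e with
  | gen z => exact he.2.1
  | cell s g => exact (P.pos_inner s _).2.1
  | mark s m => exact (P.pos_inner s _).2.1
  | role r => exact rpt_ne_star P r

lemma on_mline_role {f : Ed p k N} (hf : Valid G P f) {a : Option (ZMod p)}
    (h : epoint P f ∈ linePts (mline P.c a)) : ∃ r, f = .role r := by
  cases f with
  | gen z => exact absurd h (inner_not_mline hf.1 hf.2.2 a)
  | cell s g => exact absurd h (inner_not_mline (P.pos_inner s _).1 (P.pos_inner s _).2.2 a)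
  | mark s m => exact absurd h (inner_not_mline (P.pos_inner s _).1 (P.pos_inner s _).2.2 a)
  | role r => exact ⟨r, rfl⟩

lemma meet_lacking {e f : Ed p k N} (he : Valid G P e) (hf : Valid G P f)
    (hne : epoint P e ≠ epoint P f)
    (hk : ¬ Keeps P e (dirFrom (epoint P e) (epoint P f))) : ∃ π, vx G P e π = vx G P f π := by
  have hy := mem_dirFrom (epoint P e) (epoint P f)
  generalize hd0 : dirFrom (epoint P e) (epoint P f) = s at hk hy
  rcases (keeps_or P e s).resolve_left hk with ⟨g, rfl⟩ | ⟨r, rfl, hd⟩
  · have hpen : lineAt (P.pos s g.2.1) s = lineAt P.star s := lineAt_congr (pos_on P s g.2.1)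
    have htag : tag P f = s := by
      refine dirFrom_eq ?_ (epoint_ne_star G P hf)
      rw [← hpen]
      exact hy
    have byCol : ∀ j, g.2.2 j = evec G P f j → ∃ π, vx G P (Ed.cell s g) π = vx G P f π :=
      fun j hj => ⟨.inr j, by simp only [vx, tag_cell, htag, ← hj]; rfl⟩
    cases f with
    | gen z => obtain ⟨j, hj⟩ := G.cell_gen g he; exact byCol j hj
    | role r => obtain ⟨j, hj⟩ := G.cell_role g he (P.slot r); exact byCol j hj
    | mark s' m =>
        rw [tag_mark] at htag
        subst htag
        rcases G.cell_mark g he m hf with hu | ⟨j, hj⟩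
        · exact absurd (congrArg (P.pos s') hu) hne
        · exact byCol j hj
    | cell s' g' =>
        rw [tag_cell] at htag
        subst htag
        rcases G.cell_cell g he g' hf with hu | hc | ⟨j, hj⟩
        · exact absurd (congrArg (P.pos s') hu) hne
        · exact ⟨.inl s', by simp [vx, dline, hc]⟩
        · exact byCol j hj
  · generalize ha : lackIdx r = a at *
    have hm : P.rpt r ∈ linePts (mline P.c a) := by
      subst ha
      rcases r with ⟨b, i⟩ | i
      · exact fRole_mem P (some b) i
      · exact fRole_mem P none i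
    have hline : lineAt (P.rpt r) (mdir a) = mline P.c a := by
      rw [← mline_fst P.c a]; exact (eq_lineAt hm).symm
    have hyf : epoint P f ∈ linePts (mline P.c a) := by
      rw [hd] at hy
      rw [← hline]
      exact hy
    obtain ⟨r', rfl⟩ := on_mline_role G P hf hyf
    rcases role_on_mline P hyf with ⟨i, hi⟩ | ⟨j, hj⟩
    · refine ⟨.inl (mdir a), ?_⟩
      have : lackIdx r' = a := by rw [hi, lackIdx_fRole]
      simp [vx, dline, ha, this]
    · obtain ⟨i, hi⟩ : ∃ i, r = P.fRole a i := by
        subst ha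
        rcases r with ⟨b, i⟩ | i <;> exact ⟨i, rfl⟩
      refine ⟨.inr (partIdx G P a i j), ?_⟩
      simp only [vx, tag, epoint, evec]
      rw [colour_eq G P (t := (a, i, j)) ⟨rfl, r, Or.inl hi, rfl, rfl⟩,
        colour_eq G P (t := (a, i, j)) ⟨rfl, r', Or.inr hj, rfl, rfl⟩]

/-- Every two edges share a vertex. -/
theorem vx_meet {e f : Ed p k N} (he : Valid G P e) (hf : Valid G P f) :
    ∃ π, vx G P e π = vx G P f π := by
  by_cases hp : epoint P e = epoint P f
  · have h3 : ∃ d, Keeps P e d ∧ Keeps P f d := by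
      by_contra hc
      push Not at hc
      have h01 : (some (0 : ZMod p)) ≠ some 1 := by simp
      by_cases k0 : Keeps P e none
      · by_cases k1 : Keeps P e (some 0)
        · exact absurd (lack_unique P f (hc _ k0) (hc _ k1)) (by simp)
        · have k2 : Keeps P e (some 1) := by
            by_contra k2; exact h01 (lack_unique P e k1 k2)
          exact absurd (lack_unique P f (hc _ k0) (hc _ k2)) (by simp)
      · have k1 : Keeps P e (some 0) := by
          by_contra k1; exact absurd (lack_unique P e k0 k1) (by simp)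
        have k2 : Keeps P e (some 1) := by
          by_contra k2; exact absurd (lack_unique P e k0 k2) (by simp)
        exact h01 (lack_unique P f (hc _ k1) (hc _ k2))
    obtain ⟨d, h1, h2⟩ := h3
    exact ⟨.inl d, h1.trans (by rw [hp]; exact h2.symm)⟩
  · set d := dirFrom (epoint P e) (epoint P f) with hd
    by_cases h1 : Keeps P e d
    · by_cases h2 : Keeps P f d
      · have hl : lineAt (epoint P f) d = lineAt (epoint P e) d :=
          lineAt_congr (mem_dirFrom (epoint P e) (epoint P f))
        refine ⟨.inl d, h1.trans ?_⟩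
        rw [← hl]; exact h2.symm
      · have hrev : dirFrom (epoint P f) (epoint P e) = d := by
          refine dirFrom_eq ?_ hp
          rw [lineAt_congr (mem_dirFrom (epoint P e) (epoint P f))]
          exact mem_lineAt _ _
        obtain ⟨π, hπ⟩ := meet_lacking G P hf he (Ne.symm hp) (hrev.symm ▸ h2)
        exact ⟨π, hπ.symm⟩
    · exact meet_lacking G P he hf hp h1

/-- All edges. -/
noncomputable def edges : Finset (Ed p k N) :=
  (univ.filter fun z => Inner z ∧ z ≠ P.star ∧ z.1 ≠ P.c).image Ed.gen ∪
    ((univ : Finset (Option (ZMod p))) ×ˢ G.cells).image (fun x => Ed.cell x.1 x.2) ∪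
    ((univ : Finset (Option (ZMod p))) ×ˢ G.marks).image (fun x => Ed.mark x.1 x.2) ∪
    (univ : Finset (Role p)).image Ed.role

lemma mem_edges {e : Ed p k N} : e ∈ edges G P ↔ Valid G P e := by
  cases e <;> simp [edges, Valid]

/-- A lower bound on covers gives the final statement. -/
theorem counter_of_cover
    (h : ∀ C : Finset (Vx p k), (∀ e, Valid G P e → ∃ π, vx G P e π ∈ C) → p + 1 + k ≤ #C) :
    CounterStmt := by
  set U : Finset (Vx p k) := (edges G P).biUnion fun e => univ.image (vx G P e) with hU
  have hmem : ∀ e, Valid G P e → ∀ π, vx G P e π ∈ U := fun e he π =>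
    mem_biUnion.2 ⟨e, (mem_edges G P).2 he, mem_image_of_mem _ (mem_univ _)⟩
  have hr : Fintype.card (Part p k) = p + 1 + k := by simp
  let φ := Fintype.equivFinOfCardEq hr
  let E : Ed p k N → Finset U := fun e => univ.filter fun v => ∃ π, vx G P e π = v.1
  refine ⟨p + 1 + k, U, inferInstance, fun v => φ v.1.part, (edges G P).image E, ?_, ?_, ?_, ?_, ?_⟩
  · have := G.large; omega
  · exact ⟨_, mem_image_of_mem E ((mem_edges G P).2 (show Valid G P (.role (.inr 0)) from trivial))⟩
  · simp only [mem_image, forall_exists_index, and_imp]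
    rintro _ e he rfl i
    rw [mem_edges] at he
    refine ⟨⟨_, hmem e he (φ.symm i)⟩,
      ⟨mem_filter.2 ⟨mem_univ _, φ.symm i, rfl⟩, by simp [vx_part]⟩, ?_⟩
    rintro ⟨v, hv⟩ ⟨hvE, hvi⟩
    obtain ⟨π, hπ⟩ := (mem_filter.1 hvE).2
    simp only at hπ hvi
    subst hπ
    rw [vx_part] at hvi
    simp [← hvi]
  · simp only [mem_image, forall_exists_index, and_imp]
    rintro _ e he rfl _ f hf rfl
    rw [mem_edges] at he hf
    obtain ⟨π, hπ⟩ := vx_meet G P he hf
    exact ⟨⟨_, hmem e he π⟩, mem_filter.2 ⟨mem_univ _, π, rfl⟩, mem_filter.2 ⟨mem_univ _, π, hπ.symm⟩⟩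
  · intro C hC
    refine (h (C.image Subtype.val) fun e he => ?_).trans card_image_le
    obtain ⟨v, hv, hvC⟩ := hC _ (mem_image_of_mem E ((mem_edges G P).2 he))
    obtain ⟨π, hπ⟩ := (mem_filter.1 hv).2
    exact ⟨π, mem_image.2 ⟨v, hvC, hπ.symm⟩⟩

end Vale.Agent.P045.V4
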