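import Vale.Agent.P045.V4.Defs

open Finset
open scoped Classical

namespace Vale.Agent.P045.V4

/-- An intersecting counterexample refutes the conjecture in its usual form. -/
theorem disproof_of_counter (h : CounterStmt) :
    (∃ (r : ℕ) (V : Type) (_ : Fintype V) (part : V → Fin r) (H : Finset (Finset V)),
      2 ≤ r ∧ H.Nonempty ∧ (∀ e ∈ H, ∀ i, ∃! v, v ∈ e ∧ part v = i) ∧
      (∀ e ∈ H, ∀ f ∈ H, (e ∩ f).Nonempty) ∧
      ∀ C : Finset V, (∀ e ∈ H, (e ∩ C).Nonempty) → r ≤ #C) ∧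
    ¬ ∀ r : ℕ, 2 ≤ r → ∀ (V : Type) (_ : Fintype V) (part : V → Fin r) (H : Finset (Finset V)),
      (∀ e ∈ H, ∀ i, ∃! v, v ∈ e ∧ part v = i) → ∀ nu : ℕ,
      (∀ M ⊆ H, (∀ e ∈ M, ∀ f ∈ M, e ≠ f → Disjoint e f) → #M ≤ nu) →
      ∃ C : Finset V, (∀ e ∈ H, (e ∩ C).Nonempty) ∧ #C ≤ (r - 1) * nu := by
  obtain ⟨r, V, hV, part, H, hr, hne, hpart, hint, hcov⟩ := h
  have hc : ∀ C : Finset V, (∀ e ∈ H, (e ∩ C).Nonempty) → r ≤ #C := fun C hC =>
    hcov C fun e he => by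
      obtain ⟨v, hv⟩ := hC e he
      exact ⟨v, (mem_inter.1 hv).1, (mem_inter.1 hv).2⟩
  refine ⟨⟨r, V, hV, part, H, hr, hne, hpart, fun e he f hf => ?_, hc⟩, fun hR => ?_⟩
  · obtain ⟨v, h1, h2⟩ := hint e he f hf
    exact ⟨v, mem_inter.2 ⟨h1, h2⟩⟩
  · obtain ⟨C, hC, hle⟩ := hR r hr V hV part H hpart 1 fun M hM hdis => card_le_one.2
      fun e he f hf => by
        by_contra hef
        obtain ⟨v, h1, h2⟩ := hint e (hM he) f (hM hf)
        exact disjoint_left.1 (hdis e he f hf hef) h1 h2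
    have := hc C hC
    omega

end Vale.Agent.P045.V4
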